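import Vale.Agent.P272.S3D4.Kernel
import Mathlib.Analysis.Calculus.ContDiff.Convolution

/-! P272, Stage 3, Step D: the complex Hessian of a convolution. -/

open scoped Manifold ContDiff ComplexOrder Topology Convolution
open Complex Filter Set MeasureTheory Vale.Agent.P272.K Vale.Agent.P272.K.AMP

noncomputable section

namespace Vale.Agent.P272.S3D4

variable {n : ℕ} {f : Cm n → ℝ}

lemma conv_eq {F : Type*} [NormedAddCommGroup F] [NormedSpace ℝ F] (f : Cm n → ℝ) (G : Cm n → F)
    (x : Cm n) : (f ⋆[ContinuousLinearMap.lsmul ℝ ℝ, volume] G) x = ∫ t, f t • G (x - t) := by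
  rw [convolution_def]
  rfl

lemma conv_integrable {F : Type*} [NormedAddCommGroup F] [NormedSpace ℝ F]
    (hf : LocallyIntegrable f volume) {G : Cm n → F}
    (hG : HasCompactSupport G) (hG' : Continuous G) (x : Cm n) :
    Integrable (fun t => f t • G (x - t)) :=
  hG.convolutionExists_right (ContinuousLinearMap.lsmul ℝ ℝ) hf hG' x

lemma fderiv_conv {F : Type*} [NormedAddCommGroup F] [NormedSpace ℝ F] [CompleteSpace F]
    (hf : LocallyIntegrable f volume) {G : Cm n → F}
    (hG : HasCompactSupport G) (hG' : ContDiff ℝ 1 G) (x v : Cm n) :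
    fderiv ℝ (fun x => ∫ t, f t • G (x - t)) x v = ∫ t, f t • fderiv ℝ G (x - t) v := by
  have h1 := HasCompactSupport.hasFDerivAt_convolution_right (ContinuousLinearMap.lsmul ℝ ℝ)
    hG hf hG' x
  have h2 : (fun x => ∫ t, f t • G (x - t)) = (f ⋆[ContinuousLinearMap.lsmul ℝ ℝ, volume] G) := by
    funext y; rw [conv_eq]
  rw [h2, h1.fderiv, convolution_precompR_apply (ContinuousLinearMap.lsmul ℝ ℝ) hf
    (hG.fderiv ℝ) (hG'.continuous_fderiv (by norm_num)) x v, conv_eq]

lemma contDiff_conv {F : Type*} [NormedAddCommGroup F] [NormedSpace ℝ F] [CompleteSpace F]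
    (hf : LocallyIntegrable f volume) {G : Cm n → F}
    (hG : HasCompactSupport G) {k : ℕ∞} (hG' : ContDiff ℝ k G) :
    ContDiff ℝ k (fun x => ∫ t, f t • G (x - t)) := by
  have h2 : (fun x => ∫ t, f t • G (x - t)) = (f ⋆[ContinuousLinearMap.lsmul ℝ ℝ, volume] G) := by
    funext y; rw [conv_eq]
  rw [h2]
  exact HasCompactSupport.contDiff_convolution_right (ContinuousLinearMap.lsmul ℝ ℝ) hG hf hG'

lemma hcs_dz {G : Cm n → ℂ} (hG : HasCompactSupport G) (i : Fin n) : HasCompactSupport (dz i G) := by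
  have h1 : HasCompactSupport (fderiv ℝ G) := hG.fderiv ℝ
  refine h1.mono' ?_
  intro x hx
  refine subset_tsupport _ ?_
  intro h
  apply hx
  simp [dz, h]

lemma hcs_dzb {G : Cm n → ℂ} (hG : HasCompactSupport G) (i : Fin n) :
    HasCompactSupport (dzb i G) := by
  have h1 : HasCompactSupport (fderiv ℝ G) := hG.fderiv ℝ
  refine h1.mono' ?_
  intro x hx
  refine subset_tsupport _ ?_
  intro h
  apply hx
  simp [dzb, h]

lemma contDiff_fd {G : Cm n → ℂ} (hG : ContDiff ℝ ∞ G) (v : Cm n) :
    ContDiff ℝ ∞ (fun x => fderiv ℝ G x v) :=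
  (hG.fderiv_right (m := ∞) (by norm_cast)).clm_apply contDiff_const

lemma contDiff_dz {G : Cm n → ℂ} (hG : ContDiff ℝ ∞ G) (i : Fin n) : ContDiff ℝ ∞ (dz i G) := by
  unfold dz
  exact ((contDiff_fd hG _).sub (contDiff_const.mul (contDiff_fd hG _))).div_const _

lemma contDiff_dzb {G : Cm n → ℂ} (hG : ContDiff ℝ ∞ G) (i : Fin n) : ContDiff ℝ ∞ (dzb i G) := by
  unfold dzb
  exact ((contDiff_fd hG _).add (contDiff_const.mul (contDiff_fd hG _))).div_const _

lemma fd_hcs {G : Cm n → ℂ} (hG : HasCompactSupport G) (v : Cm n) :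
    HasCompactSupport fun x => fderiv ℝ G x v := by
  have h1 : HasCompactSupport (fderiv ℝ G) := hG.fderiv ℝ
  refine h1.mono' ?_
  intro x hx
  refine subset_tsupport _ ?_
  intro h
  apply hx
  simp [h]

lemma dz_conv (hf : LocallyIntegrable f volume) {G : Cm n → ℂ} (hG : HasCompactSupport G)
    (hG' : ContDiff ℝ ∞ G) (i : Fin n) (x : Cm n) :
    dz i (fun x => ∫ t, f t • G (x - t)) x = ∫ t, f t • dz i G (x - t) := by
  have h1 : ContDiff ℝ 1 G := hG'.of_le (by norm_cast)
  unfold dz
  rw [fderiv_conv hf hG h1, fderiv_conv hf hG h1]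
  have i1 := conv_integrable hf (fd_hcs hG (Pi.single i 1)) (contDiff_fd hG' _).continuous x
  have i2 := conv_integrable hf (fd_hcs hG (Pi.single i I)) (contDiff_fd hG' _).continuous x
  rw [← integral_const_mul, ← integral_sub i1 (i2.const_mul I), ← integral_div]
  refine integral_congr_ae (Eventually.of_forall fun t => ?_)
  simp only [Complex.real_smul]
  ring

lemma dzb_conv (hf : LocallyIntegrable f volume) {G : Cm n → ℂ} (hG : HasCompactSupport G)
    (hG' : ContDiff ℝ ∞ G) (i : Fin n) (x : Cm n) :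
    dzb i (fun x => ∫ t, f t • G (x - t)) x = ∫ t, f t • dzb i G (x - t) := by
  have h1 : ContDiff ℝ 1 G := hG'.of_le (by norm_cast)
  unfold dzb
  rw [fderiv_conv hf hG h1, fderiv_conv hf hG h1]
  have i1 := conv_integrable hf (fd_hcs hG (Pi.single i 1)) (contDiff_fd hG' _).continuous x
  have i2 := conv_integrable hf (fd_hcs hG (Pi.single i I)) (contDiff_fd hG' _).continuous x
  rw [← integral_const_mul, ← integral_add i1 (i2.const_mul I), ← integral_div]
  refine integral_congr_ae (Eventually.of_forall fun t => ?_)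
  simp only [Complex.real_smul]
  ring

/-- the potential `∫ f(t) g(x-t) dt` -/
def pot (f g : Cm n → ℝ) (x : Cm n) : ℝ := ∫ t, f t • g (x - t)

lemma contDiff_pot (hf : LocallyIntegrable f volume) {g : Cm n → ℝ} (hg : HasCompactSupport g)
    (hg' : ContDiff ℝ ∞ g) : ContDiff ℝ ∞ (pot f g) := contDiff_conv (k := ⊤) hf hg hg'

lemma cHess_pot (hf : LocallyIntegrable f volume) {g : Cm n → ℝ} (hg : HasCompactSupport g)
    (hg' : ContDiff ℝ ∞ g) (x : Cm n) (i j : Fin n) :
    cHess (pot f g) x i j = ∫ t, f t • cHess g (x - t) i j := by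
  set G : Cm n → ℂ := fun y => (g y : ℂ) with hGdef
  have hG : HasCompactSupport G := hg.comp_left (g := fun r : ℝ => (r : ℂ)) (by simp)
  have hG' : ContDiff ℝ ∞ G := Complex.ofRealCLM.contDiff.comp hg'
  rw [cHess_apply]
  have h1 : (fun y => ((pot f g y : ℝ) : ℂ)) = fun y => ∫ t, f t • G (y - t) := by
    funext y
    simp only [pot, hGdef]
    rw [← integral_complex_ofReal]
    refine integral_congr_ae (Eventually.of_forall fun t => ?_)
    simp
  have h2 : dzb j (fun y => ((pot f g y : ℝ) : ℂ)) = fun y => ∫ t, f t • dzb j G (y - t) := by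
    funext y
    rw [h1, dzb_conv hf hG hG']
  rw [h2, dz_conv hf (hcs_dzb hG j) (contDiff_dzb hG' j)]
  rfl

lemma lp_pot (hf : LocallyIntegrable f volume) {g : Cm n → ℝ} (hg : HasCompactSupport g)
    (hg' : ContDiff ℝ ∞ g) (x : Cm n) :
    lp (pot f g) x = ∫ t, f t * lp g (x - t) := by
  set G : Cm n → ℂ := fun y => (g y : ℂ) with hGdef
  have hG : HasCompactSupport G := hg.comp_left (g := fun r : ℝ => (r : ℂ)) (by simp)
  have hG' : ContDiff ℝ ∞ G := Complex.ofRealCLM.contDiff.comp hg'
  have hi : ∀ i j, Integrable (fun t => f t • cHess g (x - t) i j) := by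
    intro i j
    exact conv_integrable hf (hcs_dz (hcs_dzb hG j) i)
      (contDiff_dz (contDiff_dzb hG' j) i).continuous x
  unfold lp
  simp only [cHess_pot hf hg hg']
  have h1 : ∀ i, (∫ t, f t • cHess g (x - t) i i).re = ∫ t, f t * (cHess g (x - t) i i).re := by
    intro i
    have h2 := integral_re (hi i i)
    have h3 : (∫ t, f t • cHess g (x - t) i i).re =
        RCLike.re (∫ t, f t • cHess g (x - t) i i) := rfl
    rw [h3, ← h2]
    refine integral_congr_ae (Eventually.of_forall fun t => ?_)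
    simp
  simp only [h1]
  rw [← integral_finsetSum]
  · refine integral_congr_ae (Eventually.of_forall fun t => ?_)
    simp only [Finset.mul_sum]
  · intro i _
    have h2 := (hi i i).re
    refine h2.congr (Eventually.of_forall fun t => ?_)
    simp

end Vale.Agent.P272.S3D4
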