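import Vale.Agent.P272.K.AMP.Calc
import Vale.Agent.P272.K.AMP.H470.Loc

/-! P272, Stage 3, Step D: the regularised Newton kernel `-(|z|² + ε²)^{1-n} / (n-1)` on `ℂⁿ`. -/

open scoped Manifold ContDiff ComplexOrder Topology
open Complex Filter Set Vale.Agent.P272.K Vale.Agent.P272.K.AMP

noncomputable section

namespace Vale.Agent.P272.S3D4

variable {n : ℕ}

/-- profile -/
def pr (n : ℕ) (u : ℝ) : ℝ := -((n : ℝ) - 1)⁻¹ * (u ^ (n - 1))⁻¹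

lemma hasDerivAt_pr (hn : 2 ≤ n) {u : ℝ} (hu : 0 < u) : HasDerivAt (pr n) ((u ^ n)⁻¹) u := by
  obtain ⟨m, rfl⟩ : ∃ m, n = m + 2 := ⟨n - 2, by omega⟩
  have h1 : HasDerivAt (fun u : ℝ => u ^ (m + 1)) (((m + 1 : ℕ) : ℝ) * u ^ m) u := by
    simpa using hasDerivAt_pow (m + 1) u
  have h2 := (h1.inv (by positivity)).const_mul (-(((m + 2 : ℕ) : ℝ) - 1)⁻¹)
  have h3 : pr (m + 2) = fun u : ℝ => -(((m + 2 : ℕ) : ℝ) - 1)⁻¹ * (u ^ (m + 1))⁻¹ := by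
    funext u
    simp [pr]
  rw [h3]
  refine h2.congr_deriv ?_
  have h4 : (((m + 2 : ℕ) : ℝ) - 1) = m + 1 := by push_cast; ring
  rw [h4]
  have h5 : (m : ℝ) + 1 ≠ 0 := by positivity
  push_cast
  field_simp
  ring

lemma hasDerivAt_pow_inv (n : ℕ) {u : ℝ} (hu : 0 < u) :
    HasDerivAt (fun u : ℝ => (u ^ n)⁻¹) (-(n : ℝ) * (u ^ (n + 1))⁻¹) u := by
  rcases n with _ | m
  · simpa using hasDerivAt_const u (1 : ℝ)
  have h1 : HasDerivAt (fun u : ℝ => u ^ (m + 1)) (((m + 1 : ℕ) : ℝ) * u ^ m) u := by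
    simpa using hasDerivAt_pow (m + 1) u
  refine (h1.inv (by positivity)).congr_deriv ?_
  field_simp
  ring

/-- the kernel -/
def ke (n : ℕ) (ε : ℝ) (z : Cm n) : ℝ := pr n (AMP.sq 0 z + ε ^ 2)

lemma arg_pos {ε : ℝ} (hε : 0 < ε) (z : Cm n) : 0 < AMP.sq 0 z + ε ^ 2 := by
  have := normSq_sum_nonneg470 (0 : Cm n) z
  positivity

lemma contDiffAt_pr {u : ℝ} (hu : 0 < u) {k : WithTop ℕ∞} : ContDiffAt ℝ k (pr n) u := by
  unfold pr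
  exact contDiffAt_const.mul ((contDiffAt_id.pow _).inv (by positivity))

lemma contDiff_arg (ε : ℝ) : ContDiff ℝ ∞ (fun z : Cm n => AMP.sq 0 z + ε ^ 2) :=
  (contDiff_sq (n := n) 0).add contDiff_const

lemma contDiff_ke {ε : ℝ} (hε : 0 < ε) : ContDiff ℝ ∞ (ke n ε) := by
  rw [contDiff_iff_contDiffAt]
  intro z
  exact (contDiffAt_pr (arg_pos hε z)).comp z (contDiff_arg ε).contDiffAt

lemma dzb_sq' (i : Fin n) (z : Cm n) : dzb i (fun y : Cm n => ((AMP.sq 0 y : ℝ) : ℂ)) z = z i := by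
  have hd : ∀ (i : Fin n) (y : Cm n), DifferentiableAt ℝ (fun y : Cm n => y i - (0 : Cm n) i) y :=
    fun i y => (coord_diff 0 i y).restrictScalars ℝ
  have hdc : ∀ (i : Fin n) (y : Cm n),
      DifferentiableAt ℝ (fun y : Cm n => cj (y i - (0 : Cm n) i)) y :=
    fun i y => Complex.conjCLE.differentiableAt.comp y (hd i y)
  have e1 : (fun y : Cm n => ((AMP.sq 0 y : ℝ) : ℂ)) =
      fun y => ∑ i, (y i - (0 : Cm n) i) * cj (y i - (0 : Cm n) i) := by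
    funext y
    unfold AMP.sq
    push_cast
    refine Finset.sum_congr rfl fun i _ => ?_
    rw [Complex.mul_conj]
  rw [e1, dzb_sum Finset.univ (F := fun i (y : Cm n) => (y i - (0 : Cm n) i) * cj (y i - (0 : Cm n) i))
      fun i _ => (hd i z).mul (hdc i z)]
  rw [Finset.sum_eq_single i]
  · rw [dzb_mul (hd i z) (hdc i z), dzb_cj (hd i z), INT.dzb_of_holo (coord_diff 0 i z),
      dz_coord]
    simp
  · intro j _ hij
    rw [dzb_mul (hd j z) (hdc j z), dzb_cj (hd j z), INT.dzb_of_holo (coord_diff 0 j z),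
      dz_coord]
    simp [hij]
  · intro h; exact absurd (Finset.mem_univ i) h

lemma dz_sq' (i : Fin n) (z : Cm n) :
    dz i (fun y : Cm n => ((AMP.sq 0 y : ℝ) : ℂ)) z = (starRingEnd ℂ) (z i) := by
  have h := dzb_real_eq (AMP.sq (0 : Cm n)) z i
  rw [dzb_sq'] at h
  rw [h, Complex.conj_conj]

lemma arg_deriv (ε : ℝ) (z : Cm n) (v : Cm n) :
    fderiv ℝ (fun y : Cm n => (((AMP.sq 0 y + ε ^ 2 : ℝ)) : ℂ)) z v =
      fderiv ℝ (fun y : Cm n => ((AMP.sq 0 y : ℝ) : ℂ)) z v := by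
  have h1 : (fun y : Cm n => (((AMP.sq 0 y + ε ^ 2 : ℝ)) : ℂ)) =
      fun y => ((AMP.sq 0 y : ℝ) : ℂ) + ((ε ^ 2 : ℝ) : ℂ) := by
    funext y; push_cast; ring
  rw [h1, fderiv_add_const]

/-- the flat trace of the complex Hessian -/
def lp (f : Cm n → ℝ) (z : Cm n) : ℝ := ∑ i, (cHess f z i i).re

lemma cHess_arg (ε : ℝ) (z : Cm n) : cHess (fun y : Cm n => AMP.sq 0 y + ε ^ 2) z = 1 := by
  rw [← cHess_sq (0 : Cm n) z]
  ext i j
  simp only [cHess_apply]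
  have h : (dzb j fun y : Cm n => (((AMP.sq 0 y + ε ^ 2 : ℝ)) : ℂ)) =
      dzb j fun y : Cm n => ((AMP.sq 0 y : ℝ) : ℂ) := by
    funext y
    simp only [dzb, arg_deriv]
  rw [h]

lemma lp_ke (hn : 2 ≤ n) {ε : ℝ} (hε : 0 < ε) (z : Cm n) :
    lp (ke n ε) z = n * ε ^ 2 / (AMP.sq 0 z + ε ^ 2) ^ (n + 1) := by
  set u := AMP.sq 0 z + ε ^ 2 with hu
  have hu0 : 0 < u := arg_pos hε z
  have h1 : ContDiffAt ℝ 2 (pr n) ((fun y : Cm n => AMP.sq 0 y + ε ^ 2) z) := contDiffAt_pr hu0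
  have h2 : ContDiffAt ℝ 2 (fun y : Cm n => AMP.sq 0 y + ε ^ 2) z :=
    ((contDiff_arg ε).of_le (by norm_cast)).contDiffAt
  have h3 := cHess_comp_real h1 h2
  have d1 : deriv (pr n) u = (u ^ n)⁻¹ := (hasDerivAt_pr hn hu0).deriv
  have d2 : deriv (deriv (pr n)) u = -(n : ℝ) * (u ^ (n + 1))⁻¹ := by
    have h4 : deriv (pr n) =ᶠ[𝓝 u] fun u => (u ^ n)⁻¹ := by
      filter_upwards [lt_mem_nhds hu0] with t ht
      exact (hasDerivAt_pr hn ht).deriv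
    rw [h4.deriv_eq]
    exact (hasDerivAt_pow_inv n hu0).deriv
  have h4 : cHess (ke n ε) z = (((u ^ n)⁻¹ : ℝ) : ℂ) • (1 : Matrix (Fin n) (Fin n) ℂ) +
      ((-(n : ℝ) * (u ^ (n + 1))⁻¹ : ℝ) : ℂ) •
        gm (fun y : Cm n => AMP.sq 0 y + ε ^ 2) (fun y : Cm n => AMP.sq 0 y + ε ^ 2) z := by
    rw [← d1, ← d2, ← cHess_arg ε z]
    exact h3
  have h5 : ∀ i, (cHess (ke n ε) z i i).re =
      (u ^ n)⁻¹ + -(n : ℝ) * (u ^ (n + 1))⁻¹ * Complex.normSq (z i) := by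
    intro i
    rw [h4]
    simp only [Matrix.add_apply, Matrix.smul_apply, Matrix.one_apply_eq, gm, Matrix.of_apply,
      smul_eq_mul, mul_one, Complex.add_re, Complex.ofReal_re, Complex.re_ofReal_mul]
    congr 2
    have e1 : dz i (fun y : Cm n => (((AMP.sq 0 y + ε ^ 2 : ℝ)) : ℂ)) z = (starRingEnd ℂ) (z i) := by
      rw [← dz_sq']
      simp only [dz, arg_deriv]
    have e2 : dzb i (fun y : Cm n => (((AMP.sq 0 y + ε ^ 2 : ℝ)) : ℂ)) z = z i := by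
      rw [← dzb_sq' i z]
      simp only [dzb, arg_deriv]
    rw [e1, e2, mul_comm, Complex.mul_conj, Complex.ofReal_re]
  unfold lp
  simp only [h5]
  rw [Finset.sum_add_distrib, ← Finset.mul_sum]
  have h6 : ∑ i, Complex.normSq (z i) = u - ε ^ 2 := by
    rw [hu]; simp [AMP.sq]
  rw [h6]
  simp only [Finset.sum_const, Finset.card_univ, Fintype.card_fin, nsmul_eq_mul]
  field_simp
  ring

lemma sq_ge (z : Cm n) : ‖z‖ ^ 2 ≤ AMP.sq 0 z := by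
  have h0 : 0 ≤ AMP.sq 0 z := normSq_sum_nonneg470 0 z
  have h1 : ‖z‖ ≤ √(AMP.sq 0 z) := by
    rw [pi_norm_le_iff_of_nonneg (Real.sqrt_nonneg _)]
    intro i
    refine Real.le_sqrt_of_sq_le ?_
    have : Complex.normSq (z i - (0 : Cm n) i) ≤ AMP.sq 0 z :=
      Finset.single_le_sum (f := fun i => Complex.normSq (z i - (0 : Cm n) i))
        (fun _ _ => Complex.normSq_nonneg _) (Finset.mem_univ i)
    simpa [Complex.normSq_eq_norm_sq] using this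
  calc ‖z‖ ^ 2 ≤ (√(AMP.sq 0 z)) ^ 2 := pow_le_pow_left₀ (norm_nonneg _) h1 2
    _ = _ := Real.sq_sqrt h0

lemma sq_le' (z : Cm n) : AMP.sq 0 z ≤ n * ‖z‖ ^ 2 := by
  calc AMP.sq 0 z ≤ ∑ _i : Fin n, ‖z‖ ^ 2 := by
        refine Finset.sum_le_sum fun i _ => ?_
        rw [Complex.normSq_eq_norm_sq]
        have : ‖z i - (0 : Cm n) i‖ ≤ ‖z‖ := by simpa using norm_le_pi_norm z i
        exact pow_le_pow_left₀ (norm_nonneg _) this 2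
    _ = n * ‖z‖ ^ 2 := by simp

lemma ke_nonpos (hn : 2 ≤ n) {ε : ℝ} (hε : 0 < ε) (z : Cm n) : ke n ε z ≤ 0 := by
  have h := arg_pos hε z
  unfold ke pr
  have h1 : (0 : ℝ) ≤ ((n : ℝ) - 1)⁻¹ := by
    rw [inv_nonneg]; have : (2 : ℝ) ≤ n := by exact_mod_cast hn
    linarith
  have h2 : 0 ≤ ((AMP.sq 0 z + ε ^ 2) ^ (n - 1))⁻¹ := by positivity
  nlinarith [mul_nonneg h1 h2]

lemma neg_ke_le (hn : 2 ≤ n) {ε : ℝ} (hε : 0 < ε) {z : Cm n} (hz : z ≠ 0) :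
    -ke n ε z ≤ (‖z‖ ^ (2 * (n - 1)))⁻¹ := by
  have h := arg_pos hε z
  have hz' : 0 < ‖z‖ := norm_pos_iff.2 hz
  unfold ke pr
  have h0 : (2 : ℝ) ≤ n := by exact_mod_cast hn
  have h1 : ((n : ℝ) - 1)⁻¹ ≤ 1 := inv_le_one_of_one_le₀ (by linarith)
  have h1' : (0 : ℝ) ≤ ((n : ℝ) - 1)⁻¹ := by rw [inv_nonneg]; linarith
  have h2 : ((AMP.sq 0 z + ε ^ 2) ^ (n - 1))⁻¹ ≤ (‖z‖ ^ (2 * (n - 1)))⁻¹ := by
    refine inv_anti₀ (by positivity) ?_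
    rw [pow_mul]
    refine pow_le_pow_left₀ (by positivity) ?_ _
    have := sq_ge z
    have := sq_nonneg ε
    linarith
  have h3 : 0 ≤ ((AMP.sq 0 z + ε ^ 2) ^ (n - 1))⁻¹ := by positivity
  calc -(-((n : ℝ) - 1)⁻¹ * ((AMP.sq 0 z + ε ^ 2) ^ (n - 1))⁻¹)
      = ((n : ℝ) - 1)⁻¹ * ((AMP.sq 0 z + ε ^ 2) ^ (n - 1))⁻¹ := by ring
    _ ≤ 1 * ((AMP.sq 0 z + ε ^ 2) ^ (n - 1))⁻¹ := mul_le_mul_of_nonneg_right h1 h3
    _ ≤ _ := by rw [one_mul]; exact h2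

lemma lp_ke_nonneg (hn : 2 ≤ n) {ε : ℝ} (hε : 0 < ε) (z : Cm n) : 0 ≤ lp (ke n ε) z := by
  rw [lp_ke hn hε]
  have := arg_pos hε z
  positivity

/-- lower bound on `|z| ≤ ε` -/
lemma lp_ke_ge (hn : 2 ≤ n) {ε : ℝ} (hε : 0 < ε) {z : Cm n} (hz : ‖z‖ ≤ ε) :
    n / ((n : ℝ) + 1) ^ (n + 1) / ε ^ (2 * n) ≤ lp (ke n ε) z := by
  rw [lp_ke hn hε]
  have h := arg_pos hε z
  have h1 : AMP.sq 0 z + ε ^ 2 ≤ (n + 1) * ε ^ 2 := by
    have h2 := sq_le' z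
    have h3 : ‖z‖ ^ 2 ≤ ε ^ 2 := pow_le_pow_left₀ (norm_nonneg _) hz 2
    have h4 : (n : ℝ) * ‖z‖ ^ 2 ≤ n * ε ^ 2 := mul_le_mul_of_nonneg_left h3 (by positivity)
    linarith
  have h2 : (AMP.sq 0 z + ε ^ 2) ^ (n + 1) ≤ ((n + 1) * ε ^ 2) ^ (n + 1) :=
    pow_le_pow_left₀ h.le h1 _
  calc n / ((n : ℝ) + 1) ^ (n + 1) / ε ^ (2 * n) = n * ε ^ 2 / (((n : ℝ) + 1) * ε ^ 2) ^ (n + 1) := by
        rw [mul_pow, ← pow_mul]
        have : ε ^ (2 * (n + 1)) = ε ^ (2 * n) * ε ^ 2 := by rw [← pow_add]; ring_nf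
        rw [this]
        field_simp
    _ ≤ _ := div_le_div_of_nonneg_left (by positivity) (by positivity) h2

end Vale.Agent.P272.S3D4
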