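import Mathlib.Topology.Semicontinuity.Basic
import Mathlib.Topology.MetricSpace.Lipschitz
import Mathlib.Analysis.Normed.Ring.Lemmas

/-! P272, Stage 3, Step D: bounded upper semicontinuous functions are limits of continuous ones
from above (sup-convolution). -/

open Filter Topology Set

noncomputable section

namespace Vale.Agent.P272.S3D4

variable {α : Type*} [PseudoMetricSpace α]

/-- the sup-convolution `sup_y (t y - j d(x,y))` -/
def supc (t : α → ℝ) (j : ℕ) (x : α) : ℝ := ⨆ y, (t y - j * dist x y)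

lemma supc_bdd {t : α → ℝ} {b : ℝ} (hb : ∀ x, t x ≤ b) (j : ℕ) (x : α) :
    BddAbove (range fun y => t y - j * dist x y) := by
  refine ⟨b, ?_⟩
  rintro _ ⟨y, rfl⟩
  have : 0 ≤ (j : ℝ) * dist x y := by positivity
  have := hb y
  simp only
  linarith

lemma le_supc {t : α → ℝ} {b : ℝ} (hb : ∀ x, t x ≤ b) (j : ℕ) (x : α) : t x ≤ supc t j x := by
  have := le_ciSup (supc_bdd hb j x) x
  simpa [supc] using this

lemma supc_le [Nonempty α] {t : α → ℝ} {b : ℝ} (hb : ∀ x, t x ≤ b) (j : ℕ) (x : α) :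
    supc t j x ≤ b := by
  refine ciSup_le fun y => ?_
  have : 0 ≤ (j : ℝ) * dist x y := by positivity
  have := hb y
  linarith

lemma continuous_supc [Nonempty α] {t : α → ℝ} {b : ℝ} (hb : ∀ x, t x ≤ b) (j : ℕ) :
    Continuous (supc t j) := by
  refine LipschitzWith.continuous (K := (j : NNReal)) (LipschitzWith.of_le_add_mul _ fun x x' => ?_)
  refine ciSup_le fun y => ?_
  have h1 := le_ciSup (supc_bdd hb j x') y
  have h2 := dist_triangle x' x y
  have h3 : (j : ℝ) * dist x' y ≤ j * (dist x' x + dist x y) :=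
    mul_le_mul_of_nonneg_left h2 (by positivity)
  have h4 : dist x' x = dist x x' := dist_comm _ _
  simp only [NNReal.coe_natCast]
  simp only [supc] at h1 ⊢
  rw [h4] at h3
  linarith

theorem tendsto_supc [Nonempty α] {t : α → ℝ} (ht : UpperSemicontinuous t) {b : ℝ} (h0 : ∀ x, 0 ≤ t x)
    (hb : ∀ x, t x ≤ b) (x : α) : Tendsto (fun j => supc t j x) atTop (𝓝 (t x)) := by
  rw [Metric.tendsto_atTop]
  intro δ hδ
  have h1 : ∀ᶠ y in 𝓝 x, t y < t x + δ / 2 := ht x (t x + δ / 2) (by linarith)
  obtain ⟨ρ, hρ, h2⟩ := Metric.eventually_nhds_iff.1 h1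
  obtain ⟨N, hN⟩ := exists_nat_ge (b / ρ)
  refine ⟨N, fun j hj => ?_⟩
  have h3 : supc t j x ≤ t x + δ / 2 := by
    refine ciSup_le fun y => ?_
    by_cases hy : dist y x < ρ
    · have := h2 hy
      have : 0 ≤ (j : ℝ) * dist x y := by positivity
      linarith
    · push Not at hy
      have h4 : (N : ℝ) ≤ j := by exact_mod_cast hj
      have h5 : b ≤ N * ρ := by rwa [div_le_iff₀ hρ] at hN
      have h6 : (N : ℝ) * ρ ≤ j * dist x y := by
        rw [dist_comm x y]
        exact mul_le_mul h4 hy hρ.le (by positivity)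
      have := hb y
      have := h0 x
      linarith
  have h4 := le_supc hb j x
  rw [Real.dist_eq, abs_lt]
  constructor <;> linarith

end Vale.Agent.P272.S3D4
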