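import Vale.Agent.P272.S3D4.Pot
import Vale.Agent.P272.S3D4.Usc

/-! P272, Stage 3, Step D: the local sup bound. -/

open scoped Manifold ContDiff ComplexOrder Topology Convolution
open Complex Filter Set MeasureTheory Metric Vale.Agent.P272.K Vale.Agent.P272.K.AMP

noncomputable section

namespace Vale.Agent.P272.S3D4

variable {n : ℕ}

lemma usc_ext {α : Type*} [TopologicalSpace α] {K : Set α} (hK : IsClosed K) {s : α → ℝ}
    (hs : UpperSemicontinuousOn s K) (h0 : ∀ y ∈ K, 0 ≤ s y) :
    UpperSemicontinuous (K.indicator s) := by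
  intro x y hy
  by_cases hx : x ∈ K
  · rw [indicator_of_mem hx] at hy
    have h1 : ∀ᶠ z in 𝓝[K] x, s z < y := hs x hx y hy
    rw [eventually_nhdsWithin_iff] at h1
    filter_upwards [h1] with z hz
    by_cases hzK : z ∈ K
    · rw [indicator_of_mem hzK]; exact hz hzK
    · rw [indicator_of_notMem hzK]; exact lt_of_le_of_lt (h0 x hx) hy
  · rw [indicator_of_notMem hx] at hy
    filter_upwards [hK.isOpen_compl.mem_nhds hx] with z hz
    rw [indicator_of_notMem hz]; exact hy

/-- continuous majorant with control of the exponential integral -/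
lemma exists_major {x0 : Cm n} {R α K : ℝ} (hα : 0 < α) {s1 : Cm n → ℝ}
    (hs : UpperSemicontinuousOn s1 (closedBall x0 R)) (h0 : ∀ y ∈ closedBall x0 R, 0 ≤ s1 y)
    (hb : ∃ b, ∀ y ∈ closedBall x0 R, s1 y ≤ b)
    (hK : ∫ y in closedBall x0 R, Real.exp (α * s1 y) ≤ K) :
    ∃ T : Cm n → ℝ, Continuous T ∧ (∀ y, 0 ≤ T y) ∧ (∀ y ∈ closedBall x0 R, s1 y ≤ T y) ∧
      ∫ y in closedBall x0 R, Real.exp (α * T y) ≤ K + 1 := by
  obtain ⟨b, hb⟩ := hb
  set t : Cm n → ℝ := (closedBall x0 R).indicator s1 with ht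
  have htu : UpperSemicontinuous t := usc_ext isClosed_closedBall hs h0
  have ht0 : ∀ x, 0 ≤ t x := fun x => indicator_nonneg h0 x
  have htb : ∀ x, t x ≤ max b 0 := by
    intro x
    by_cases hx : x ∈ closedBall x0 R
    · rw [ht, indicator_of_mem hx]; exact (hb x hx).trans (le_max_left _ _)
    · rw [ht, indicator_of_notMem hx]; exact le_max_right _ _
  have hlim : Tendsto (fun j => ∫ y in closedBall x0 R, Real.exp (α * supc t j y)) atTop
      (𝓝 (∫ y in closedBall x0 R, Real.exp (α * t y))) := by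
    refine tendsto_integral_of_dominated_convergence (fun _ => Real.exp (α * max b 0)) ?_ ?_ ?_ ?_
    · intro j
      exact (Real.continuous_exp.comp
        (continuous_const.mul (continuous_supc htb j))).aestronglyMeasurable
    · exact integrableOn_const (measure_closedBall_lt_top.ne)
    · intro j
      refine Eventually.of_forall fun y => ?_
      rw [Real.norm_eq_abs, abs_of_pos (Real.exp_pos _), Real.exp_le_exp]
      exact mul_le_mul_of_nonneg_left (supc_le htb j y) hα.le
    · refine Eventually.of_forall fun y => ?_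
      exact (Real.continuous_exp.tendsto _).comp
        ((tendsto_supc htu ht0 htb y).const_mul α)
  have hle : ∫ y in closedBall x0 R, Real.exp (α * t y) ≤ K := by
    refine le_trans (le_of_eq ?_) hK
    refine setIntegral_congr_fun measurableSet_closedBall fun y hy => ?_
    simp only [ht, indicator_of_mem hy]
  obtain ⟨j, hj⟩ := ((tendsto_order.1 hlim).2 (K + 1) (by linarith)).exists
  refine ⟨supc t j, continuous_supc htb j, fun y => (ht0 y).trans (le_supc htb j y), ?_, hj.le⟩
  intro y hy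
  have := le_supc htb j y
  rwa [ht, indicator_of_mem hy] at this

/-- the hypothesis: the viscosity inequality for the flat trace -/
def LocMax (x0 : Cm n) (R A κ : ℝ) (s s1 : Cm n → ℝ) : Prop :=
  ∀ x ∈ ball x0 R, ∀ q : Cm n → ℝ, ContDiff ℝ ∞ q →
    (∀ᶠ z in 𝓝 x, s z + q z ≤ s x + q x) → lp q x ≤ A * Real.exp (κ * s1 x)

theorem local_bound (hn : 2 ≤ n) {R A κ α K : ℝ} (hR : 0 < R) (hA : 0 ≤ A) (hκ : 0 ≤ κ)
    (hα : 0 < α) (hκα : κ * (n + 1) ≤ α) (hK : 0 ≤ K) :
    ∃ C : ℝ, ∀ (x0 : Cm n) (s s1 : Cm n → ℝ), UpperSemicontinuousOn s (closedBall x0 R) →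
      UpperSemicontinuousOn s1 (closedBall x0 R) →
      (∀ y ∈ closedBall x0 R, 0 ≤ s y ∧ s y ≤ s1 y ∧ s y ≤ s x0) →
      (∃ b, ∀ y ∈ closedBall x0 R, s1 y ≤ b) → LocMax x0 R A κ s s1 →
      ∫ y in closedBall x0 R, Real.exp (α * s1 y) ≤ K → s x0 ≤ C := by
  have hc0 := c0_pos hn
  have hI0 := I0_nonneg n R
  -- constants
  obtain ⟨C', hC'⟩ : ∃ C', C' = (c0 n)⁻¹ * (2 * I0 n R + A ^ (n + 1) * (K + 1) + 1) := ⟨_, rfl⟩
  have hC'0 : 0 ≤ C' := by rw [hC']; positivity
  obtain ⟨c, hc⟩ : ∃ c, c = 4 * (C' + 1) / R ^ 2 := ⟨_, rfl⟩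
  have hcpos : 0 < c := by rw [hc]; positivity
  obtain ⟨N, hN⟩ : ∃ N, N = c * n + 2 := ⟨_, rfl⟩
  have hN0 : 0 < N := by rw [hN]; positivity
  obtain ⟨K', hK'⟩ : ∃ K', K' = Real.log (N ^ (n + 1) * (K + 1)) / α := ⟨_, rfl⟩
  have hNK : 0 < N ^ (n + 1) * (K + 1) := by positivity
  have hexp : Real.exp (α * K') = N ^ (n + 1) * (K + 1) := by
    rw [hK', mul_div_cancel₀ _ hα.ne', Real.exp_log hNK]
  refine ⟨max 0 (K' + C'), fun x0 s s1 hs hs1 hord hb hL hint => ?_⟩
  have hx0 : x0 ∈ closedBall x0 R := mem_closedBall_self hR.le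
  obtain ⟨T, hT, hT0, hsT, hTK⟩ := exists_major hα hs1
    (fun y hy => (hord y hy).1.trans (hord y hy).2.1) hb hint
  -- the densities
  set F1 : Cm n → ℝ := fun y => A * Real.exp (κ * T y) with hF1
  set F2 : Cm n → ℝ := fun y => N * min 1 (Real.exp (α * (T y - K'))) with hF2
  have hF1c : Continuous F1 := by rw [hF1]; fun_prop
  have hF2c : Continuous F2 := by rw [hF2]; fun_prop
  have hF10 : ∀ y, 0 ≤ F1 y := fun y => by rw [hF1]; positivity
  have hF20 : ∀ y, 0 ≤ F2 y := fun y => by rw [hF2]; positivity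
  have hFc : Continuous fun y => F1 y + F2 y := hF1c.add hF2c
  have hF0 : ∀ y, 0 ≤ F1 y + F2 y := fun y => add_nonneg (hF10 y) (hF20 y)
  have cK : IsCompact (closedBall x0 R) := isCompact_closedBall x0 R
  have hexpi : IntegrableOn (fun y => Real.exp (α * T y)) (closedBall x0 R) :=
    (Real.continuous_exp.comp (continuous_const.mul hT)).continuousOn.integrableOn_compact cK
  have hF1p : ∫ y in closedBall x0 R, F1 y ^ (n + 1) ≤ A ^ (n + 1) * (K + 1) := by
    calc ∫ y in closedBall x0 R, F1 y ^ (n + 1)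
        ≤ ∫ y in closedBall x0 R, A ^ (n + 1) * Real.exp (α * T y) := by
          refine setIntegral_mono_on ((hF1c.pow _).continuousOn.integrableOn_compact cK)
            (hexpi.const_mul _) measurableSet_closedBall fun y _ => ?_
          simp only [hF1, mul_pow]
          refine mul_le_mul_of_nonneg_left ?_ (by positivity)
          rw [← Real.exp_nat_mul, Real.exp_le_exp]
          push_cast
          calc ((n : ℝ) + 1) * (κ * T y) = (κ * (n + 1)) * T y := by ring
            _ ≤ α * T y := mul_le_mul_of_nonneg_right hκα (hT0 y)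
      _ = A ^ (n + 1) * ∫ y in closedBall x0 R, Real.exp (α * T y) := integral_const_mul _ _
      _ ≤ _ := mul_le_mul_of_nonneg_left hTK (by positivity)
  have hF2p : ∫ y in closedBall x0 R, F2 y ^ (n + 1) ≤ 1 := by
    calc ∫ y in closedBall x0 R, F2 y ^ (n + 1)
        ≤ ∫ y in closedBall x0 R, (N ^ (n + 1) * (Real.exp (α * K'))⁻¹) * Real.exp (α * T y) := by
          refine setIntegral_mono_on ((hF2c.pow _).continuousOn.integrableOn_compact cK)
            (hexpi.const_mul _) measurableSet_closedBall fun y _ => ?_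
          simp only [hF2, mul_pow]
          rw [mul_assoc]
          refine mul_le_mul_of_nonneg_left ?_ (by positivity)
          have h0 : 0 ≤ min 1 (Real.exp (α * (T y - K'))) := by positivity
          calc (min 1 (Real.exp (α * (T y - K')))) ^ (n + 1)
              ≤ min 1 (Real.exp (α * (T y - K'))) := by
                have := pow_le_of_le_one h0 (min_le_left _ _) (show n + 1 ≠ 0 by omega)
                exact this
            _ ≤ Real.exp (α * (T y - K')) := min_le_right _ _
            _ = (Real.exp (α * K'))⁻¹ * Real.exp (α * T y) := by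
                rw [← Real.exp_neg, ← Real.exp_add]; congr 1; ring
      _ = N ^ (n + 1) * (Real.exp (α * K'))⁻¹ * ∫ y in closedBall x0 R, Real.exp (α * T y) :=
          integral_const_mul _ _
      _ ≤ N ^ (n + 1) * (Real.exp (α * K'))⁻¹ * (K + 1) :=
          mul_le_mul_of_nonneg_left hTK (by positivity)
      _ = 1 := by rw [hexp]; field_simp
  -- the scale
  obtain ⟨ε, hε, hεR, hεF⟩ : ∃ ε, 0 < ε ∧ ε ≤ R / 2 ∧ ∀ x ∈ closedBall x0 R,
      ∀ y ∈ closedBall x0 R, dist y x ≤ ε → F1 x + F2 x - 1 ≤ F1 y + F2 y := by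
    have huc : UniformContinuousOn (fun y => F1 y + F2 y) (closedBall x0 R) :=
      cK.uniformContinuousOn_of_continuous hFc.continuousOn
    rw [Metric.uniformContinuousOn_iff] at huc
    obtain ⟨δ, hδ, h1⟩ := huc 1 one_pos
    refine ⟨min (R / 2) (δ / 2), by positivity, min_le_left _ _, fun x hx y hy hxy => ?_⟩
    have h2 : dist y x < δ := by
      have := min_le_right (R / 2) (δ / 2)
      linarith
    have h3 := h1 y hy x hx h2
    rw [Real.dist_eq, abs_lt] at h3
    linarith
  obtain ⟨P, hPs, hP, hPl⟩ := exists_pot hR hε x0 hFc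
  -- bounds of the potential
  have hke : Continuous (ke n ε) := (contDiff_ke hε).continuous
  have hPle : ∀ x ∈ closedBall x0 R, P x ≤ 0 := by
    intro x hx
    rw [hP x hx]
    refine setIntegral_nonpos measurableSet_closedBall fun y _ => ?_
    exact mul_nonpos_of_nonneg_of_nonpos (hF0 y) (ke_nonpos hn hε _)
  have hPge : ∀ x ∈ closedBall x0 R, -C' ≤ (c0 n)⁻¹ * P x := by
    intro x hx
    have h1 := pot_bound hn hR hx hF1c hF10 hε
    have h2 := pot_bound hn hR hx hF2c hF20 hε
    have hc1 : Continuous fun y => ke n ε (x - y) := hke.comp (continuous_const.sub continuous_id)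
    have i1 : IntegrableOn (fun y => F1 y * (-ke n ε (x - y))) (closedBall x0 R) :=
      (hF1c.mul hc1.neg).continuousOn.integrableOn_compact cK
    have i2 : IntegrableOn (fun y => F2 y * (-ke n ε (x - y))) (closedBall x0 R) :=
      (hF2c.mul hc1.neg).continuousOn.integrableOn_compact cK
    have h3 : -P x = (∫ y in closedBall x0 R, F1 y * (-ke n ε (x - y))) +
        ∫ y in closedBall x0 R, F2 y * (-ke n ε (x - y)) := by
      rw [hP x hx, ← integral_add i1 i2, ← integral_neg]
      refine integral_congr_ae (Eventually.of_forall fun y => ?_)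
      simp only
      ring
    have h4 : -P x ≤ 2 * I0 n R + A ^ (n + 1) * (K + 1) + 1 := by rw [h3]; linarith
    have h5 : (c0 n)⁻¹ * (-P x) ≤ C' := by
      rw [hC']; exact mul_le_mul_of_nonneg_left h4 (by positivity)
    linarith
  -- the test function
  set q : Cm n → ℝ := fun z => (c0 n)⁻¹ * P z - c * AMP.sq x0 z with hq
  have hqs : ContDiff ℝ ∞ q := (contDiff_const.mul hPs).sub (contDiff_const.mul (contDiff_sq x0))
  have husc : UpperSemicontinuousOn (fun z => s z + q z) (closedBall x0 R) :=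
    hs.add hqs.continuous.continuousOn.upperSemicontinuousOn
  obtain ⟨x, hx, hmax⟩ := husc.exists_isMaxOn ⟨x0, hx0⟩ cK
  have hsq : ‖x - x0‖ ^ 2 ≤ AMP.sq x0 x := by
    have := sq_ge (x - x0)
    simpa [AMP.sq] using this
  have hsq0 : AMP.sq x0 x0 = 0 := by simp [AMP.sq]
  have hmx0 : s x0 + q x0 ≤ s x + q x := hmax hx0
  have hqx0 : -C' ≤ q x0 := by
    simp only [hq, hsq0, mul_zero, sub_zero]
    exact hPge x0 hx0
  have hPx : (c0 n)⁻¹ * P x ≤ 0 :=
    mul_nonpos_of_nonneg_of_nonpos (by positivity) (hPle x hx)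
  have hqx : q x ≤ -(c * ‖x - x0‖ ^ 2) := by
    have : c * ‖x - x0‖ ^ 2 ≤ c * AMP.sq x0 x := mul_le_mul_of_nonneg_left hsq hcpos.le
    simp only [hq]
    linarith
  have hsx : s x ≤ s x0 := (hord x hx).2.2
  have hnorm : ‖x - x0‖ < R / 2 := by
    have h1 : c * ‖x - x0‖ ^ 2 ≤ C' := by linarith
    rw [hc, div_mul_eq_mul_div, div_le_iff₀ (by positivity)] at h1
    by_contra h2
    push Not at h2
    have h3 : (R / 2) ^ 2 ≤ ‖x - x0‖ ^ 2 := pow_le_pow_left₀ (by positivity) h2 2
    have h4 : 4 * (C' + 1) * (R / 2) ^ 2 ≤ 4 * (C' + 1) * ‖x - x0‖ ^ 2 :=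
      mul_le_mul_of_nonneg_left h3 (by positivity)
    have h5 : 0 < R ^ 2 := by positivity
    nlinarith
  have hxb : x ∈ ball x0 R := by rw [mem_ball, dist_eq_norm]; linarith
  have hsub : closedBall x ε ⊆ closedBall x0 R := by
    intro y hy
    rw [mem_closedBall] at hy ⊢
    have := dist_triangle y x x0
    rw [dist_eq_norm x x0] at this
    linarith
  -- the inequality at the maximum point
  have hloc : ∀ᶠ z in 𝓝 x, s z + q z ≤ s x + q x := by
    filter_upwards [isOpen_ball.mem_nhds hxb] with z hz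
    exact hmax (ball_subset_closedBall hz)
  have hmain := hL x hxb q hqs hloc
  have hlpq : lp q x = (c0 n)⁻¹ * lp P x - c * n := by
    have e1 : ContDiffAt ℝ 2 P x := (hPs.of_le (by norm_cast)).contDiffAt
    have e2 : ContDiffAt ℝ 2 (AMP.sq x0) x := ((contDiff_sq x0).of_le (by norm_cast)).contDiffAt
    have e3 : cHess q x = ((c0 n)⁻¹ : ℝ) • cHess P x - (c : ℝ) • cHess (AMP.sq x0) x := by
      have e4 := cHess_sub (f := fun z => (c0 n)⁻¹ * P z) (g := fun z => c * AMP.sq x0 z)
        (contDiffAt_const.mul e1) (contDiffAt_const.mul e2)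
      rw [cHess_const_mul _ e1, cHess_const_mul _ e2] at e4
      rw [hq]
      rw [e4]
      ext i j
      simp
    unfold lp
    rw [e3, cHess_sq]
    simp only [Matrix.sub_apply, Matrix.smul_apply, Matrix.one_apply_eq, Complex.sub_re,
      Complex.smul_re, smul_eq_mul, Complex.one_re, mul_one, Finset.sum_sub_distrib,
      ← Finset.mul_sum, Finset.sum_const, Finset.card_univ, Fintype.card_fin, nsmul_eq_mul]
    ring
  have hPx' : F1 x + F2 x - 1 ≤ (c0 n)⁻¹ * lp P x := by
    have h1 := lp_pot_ge hn hε hsub hFc hF0 (m := F1 x + F2 x - 1)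
      (fun y hy => hεF x hx y (hsub hy) (mem_closedBall.1 hy))
    rw [hPl x hx]
    rw [← inv_mul_cancel_left₀ hc0.ne' (F1 x + F2 x - 1)]
    exact mul_le_mul_of_nonneg_left h1 (by positivity)
  have hF1x : A * Real.exp (κ * s1 x) ≤ F1 x := by
    simp only [hF1]
    refine mul_le_mul_of_nonneg_left ?_ hA
    rw [Real.exp_le_exp]
    exact mul_le_mul_of_nonneg_left (hsT x hx) hκ
  have hF2x : F2 x < N := by
    rw [hlpq] at hmain
    rw [hN]
    linarith
  have hTx : T x < K' := by
    by_contra h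
    push Not at h
    have h1 : min 1 (Real.exp (α * (T x - K'))) = 1 := by
      refine min_eq_left ?_
      rw [Real.one_le_exp_iff]
      exact mul_nonneg hα.le (by linarith)
    simp only [hF2, h1, mul_one, lt_irrefl] at hF2x
  have hq0 : q x ≤ 0 := by
    have : 0 ≤ c * ‖x - x0‖ ^ 2 := by positivity
    linarith
  have h9 : s x ≤ T x := (hord x hx).2.1.trans (hsT x hx)
  refine le_trans ?_ (le_max_right _ _)
  linarith

end Vale.Agent.P272.S3D4
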