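import Vale.Agent.P272.S3D4.Local
import Vale.Agent.P272.FAM.VolChart

/-! P272, Stage 3, Step D: the sup bound on the compact manifold. -/

open scoped Manifold ContDiff ComplexOrder Topology ENNReal NNReal
open Complex Filter Set MeasureTheory Metric Vale.Agent.P272.K Vale.Agent.P272.K.AMP

noncomputable section

namespace Vale.Agent.P272.S3D4

set_option linter.unusedSectionVars false

variable {n : ℕ} {X : Type*} [TopologicalSpace X] [ChartedSpace (Cm n) X]

/-- local maxima of `S + q` -/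
def MaxIneq' (w : Chart n X → Cm n → Matrix (Fin n) (Fin n) ℂ) (h S : X → ℝ) : Prop :=
  ∀ (e : Chart n X) (x : X), At e x → ∀ q : Cm n → ℝ, ContDiffAt ℝ 2 q (e x) →
    (∀ᶠ z in 𝓝 (e x), S (e.symm z) + q z ≤ S x + q (e x)) →
    ((h x : ℂ) • w e (e x) - cHess q (e x)).PosSemidef

lemma usc_comp {e : Chart n X} {S : X → ℝ} (hS : UpperSemicontinuous S) {K : Set (Cm n)}
    (hK : K ⊆ e.target) : UpperSemicontinuousOn (fun z => S (e.symm z)) K := by
  intro z hz y hy
  exact ((e.continuousOn_symm z (hK hz)).mono hK).eventually (hS (e.symm z) y hy)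

lemma locMax_of {w : Chart n X → Cm n → Matrix (Fin n) (Fin n) ℂ} {S S1 : X → ℝ} {A κ : ℝ}
    (hM : MaxIneq' w (fun x => A * Real.exp (κ * S1 x)) S) (hA : 0 ≤ A) {e : Chart n X}
    (he : e ∈ atlas (Cm n) X) {x0 : Cm n} {R M : ℝ} (hK : closedBall x0 R ⊆ e.target)
    (hM' : ∀ z ∈ closedBall x0 R, (w e z).trace.re ≤ M) :
    LocMax x0 R (A * M) κ (fun z => S (e.symm z)) (fun z => S1 (e.symm z)) := by
  intro x hx q hq hloc
  have hxt : x ∈ e.target := hK (ball_subset_closedBall hx)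
  have hex : e (e.symm x) = x := e.right_inv hxt
  have h1 := hM e (e.symm x) ⟨he, e.map_target hxt⟩ q
    (by rw [hex]; exact (hq.of_le (by norm_cast)).contDiffAt) (by rw [hex]; exact hloc)
  rw [hex] at h1
  have h2 : 0 ≤ ((((A * Real.exp (κ * S1 (e.symm x)) : ℝ)) : ℂ) • w e x - cHess q x).trace :=
    h1.trace_nonneg
  have h3 := (Complex.le_def.1 h2).1
  rw [Matrix.trace_sub, Matrix.trace_smul, smul_eq_mul, Complex.sub_re,
    Complex.re_ofReal_mul, Complex.zero_re] at h3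
  have h4 : lp q x = (cHess q x).trace.re := by
    unfold lp Matrix.trace
    simp [Matrix.diag]
  rw [h4]
  have h5 := hM' x (ball_subset_closedBall hx)
  have h6 : 0 ≤ A * Real.exp (κ * S1 (e.symm x)) := by positivity
  calc (cHess q x).trace.re ≤ A * Real.exp (κ * S1 (e.symm x)) * (w e x).trace.re := by linarith
    _ ≤ A * Real.exp (κ * S1 (e.symm x)) * M := mul_le_mul_of_nonneg_left h5 h6
    _ = A * M * Real.exp (κ * S1 (e.symm x)) := by ring

variable [IsManifold 𝓘(ℂ, Cm n) ω X] [T2Space X] [CompactSpace X] [MeasurableSpace X]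
  [BorelSpace X]

lemma trace_bound {w : Chart n X → Cm n → Matrix (Fin n) (Fin n) ℂ} (hw : IsHermitian w)
    {e : Chart n X} (hea : e ∈ atlas (Cm n) X) {B : Set (Cm n)} (hBc : IsCompact B)
    (hB : B ⊆ e.target) : ∃ M, ∀ z ∈ B, (w e z).trace.re ≤ M := by
  have hc : ContinuousOn (fun z => (w e z).trace) B := by
    have : (fun z => (w e z).trace) = fun z => ∑ i, w e z i i := by
      funext z; rfl
    rw [this]
    refine continuousOn_finsetSum _ fun i _ => fun z hz => ?_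
    have hzt := hB hz
    have h1 := hw.smooth e (e.symm z) ⟨hea, e.map_target hzt⟩ i i
    rw [e.right_inv hzt] at h1
    exact h1.continuousAt.continuousWithinAt
  obtain ⟨M, hM⟩ := hBc.exists_bound_of_continuousOn hc
  exact ⟨M, fun z hz => (Complex.re_le_norm _).trans (hM z hz)⟩

lemma usc_bdd {S1 : X → ℝ} (hS1 : UpperSemicontinuous S1) (y : X) : ∃ b, ∀ z, S1 z ≤ b := by
  obtain ⟨z, _, hz⟩ := (hS1.upperSemicontinuousOn univ).exists_isMaxOn ⟨y, mem_univ y⟩
    isCompact_univ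
  exact ⟨S1 z, fun u => hz (mem_univ u)⟩

/-- the exponential integral in a chart -/
lemma chart_int {w : Chart n X → Cm n → Matrix (Fin n) (Fin n) ℂ} (hw : IsHermitian w)
    {e : Chart n X} {B D : Set (Cm n)} (hDB : D ⊆ B) (hD : MeasurableSet D)
    (hB : B ⊆ e.target) {c : ℝ≥0}
    (hcl : ∀ h : X → ℝ≥0∞, Measurable h →
      ∫⁻ z in B, h (e.symm z) ≤ c * ∫⁻ x, h x ∂(volX w))
    {S1 : X → ℝ} (hS1 : UpperSemicontinuous S1) {α K : ℝ} (hα : 0 < α)
    (hint : ∫ x, Real.exp (α * S1 x) ∂(volX w) ≤ K) (y : X) :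
    ∫ z in D, Real.exp (α * S1 (e.symm z)) ≤ c * max K 0 := by
  obtain ⟨b, hb⟩ := usc_bdd hS1 y
  have hfin : IsFiniteMeasure (volX w) := isFiniteMeasure_volX hw
  have hmeas : Measurable fun x => Real.exp (α * S1 x) :=
    Real.measurable_exp.comp (hS1.measurable.const_mul α)
  have hexpb : ∀ x, Real.exp (α * S1 x) ≤ Real.exp (α * b) := fun x =>
    Real.exp_le_exp.2 (mul_le_mul_of_nonneg_left (hb x) hα.le)
  have hi : Integrable (fun x => Real.exp (α * S1 x)) (volX w) := by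
    refine Integrable.of_bound hmeas.aestronglyMeasurable (Real.exp (α * b))
      (Eventually.of_forall fun x => ?_)
    rw [Real.norm_eq_abs, abs_of_pos (Real.exp_pos _)]
    exact hexpb x
  have h1 := hcl (fun x => ENNReal.ofReal (Real.exp (α * S1 x))) hmeas.ennreal_ofReal
  rw [← ofReal_integral_eq_lintegral_ofReal hi
    (Eventually.of_forall fun x => (Real.exp_pos _).le)] at h1
  have h2 : ∫⁻ z in D, ENNReal.ofReal (Real.exp (α * S1 (e.symm z))) ≤
      ENNReal.ofReal (c * max K 0) := by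
    calc ∫⁻ z in D, ENNReal.ofReal (Real.exp (α * S1 (e.symm z)))
        ≤ ∫⁻ z in B, ENNReal.ofReal (Real.exp (α * S1 (e.symm z))) :=
          lintegral_mono_set hDB
      _ ≤ c * ENNReal.ofReal (∫ x, Real.exp (α * S1 x) ∂(volX w)) := h1
      _ ≤ c * ENNReal.ofReal (max K 0) := by
          gcongr
          exact hint.trans (le_max_left _ _)
      _ = ENNReal.ofReal (c * max K 0) := by
          rw [ENNReal.ofReal_mul (by positivity), ENNReal.ofReal_coe_nnreal]
  rw [integral_eq_lintegral_of_nonneg_ae (Eventually.of_forall fun z => (Real.exp_pos _).le)]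
  · exact ENNReal.toReal_le_of_le_ofReal (by positivity) h2
  · have h3 : AEMeasurable e.symm (volume.restrict D) :=
      (e.continuousOn_symm.mono (hDB.trans hB)).aemeasurable hD
    exact (hmeas.comp_aemeasurable h3).aestronglyMeasurable

/-- the bound at a maximum point in a given chart ball -/
lemma key (hn : 2 ≤ n) {w : Chart n X → Cm n → Matrix (Fin n) (Fin n) ℂ} (hw : IsHermitian w)
    {A κ α K : ℝ} (hA : 0 ≤ A) (hκ : 0 ≤ κ) (hα : 0 < α) (hκα : κ * (n + 1) ≤ α)
    {e : Chart n X} (hea : e ∈ atlas (Cm n) X) {p : Cm n} {R : ℝ} (hR : 0 < R)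
    (hRt : closedBall p (2 * R) ⊆ e.target) :
    ∃ C : ℝ, ∀ S S1 : X → ℝ, UpperSemicontinuous S → UpperSemicontinuous S1 →
      (∀ x, 0 ≤ S x) → (∀ x, S x ≤ S1 x) → MaxIneq' w (fun x => A * Real.exp (κ * S1 x)) S →
      ∫ x, Real.exp (α * S1 x) ∂(volX w) ≤ K → ∀ y ∈ e.source,
      e y ∈ ball p R → (∀ z, S z ≤ S y) → S y ≤ C := by
  have hBc : IsCompact (closedBall p (2 * R)) := isCompact_closedBall _ _
  obtain ⟨M, hM⟩ := trace_bound hw hea hBc hRt
  obtain ⟨c, hc, hcl⟩ := FAM.lintegral_le_volX hw hea hBc hRt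
  have hM0 : 0 ≤ max M 0 := le_max_right _ _
  have hK0 : 0 ≤ max K 0 := le_max_right _ _
  obtain ⟨C, hC⟩ := local_bound hn hR (A := A * max M 0) (κ := κ) (α := α) (K := c * max K 0)
    (mul_nonneg hA hM0) hκ hα hκα (mul_nonneg c.2 hK0)
  refine ⟨C, fun S S1 hS hS1 h0 h01 hmax hint y hy hyb hymax => ?_⟩
  have hsub : closedBall (e y) R ⊆ closedBall p (2 * R) := by
    intro z hz
    rw [mem_closedBall]
    have := dist_triangle z (e y) p
    have h1 := mem_closedBall.1 hz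
    have h2 := mem_ball.1 hyb
    linarith
  have hsubt : closedBall (e y) R ⊆ e.target := hsub.trans hRt
  have hsy : S (e.symm (e y)) = S y := by rw [e.left_inv hy]
  obtain ⟨b, hb⟩ := usc_bdd hS1 y
  have hbound := hC (e y) (fun z => S (e.symm z)) (fun z => S1 (e.symm z)) (usc_comp hS hsubt)
    (usc_comp hS1 hsubt)
    (fun z _ => ⟨h0 _, h01 _, by simp only [hsy]; exact hymax _⟩) ⟨b, fun z _ => hb _⟩
    (locMax_of hmax hA hea hsubt fun z hz => (hM z (hsub hz)).trans (le_max_left _ _))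
    (chart_int hw hsub measurableSet_closedBall hRt hcl hS1 hα hint y)
  simpa only [hsy] using hbound

/-- **Step D** -/
theorem stepD (hn : 2 ≤ n) {w : Chart n X → Cm n → Matrix (Fin n) (Fin n) ℂ} (hw : IsHermitian w)
    {A κ α K : ℝ} (hA : 0 ≤ A) (hκ : 0 ≤ κ) (hα : 0 < α) (hκα : κ * (n + 1) ≤ α) :
    ∃ C : ℝ, ∀ S S1 : X → ℝ, UpperSemicontinuous S → UpperSemicontinuous S1 → (∀ x, 0 ≤ S x) →
      (∀ x, S x ≤ S1 x) → MaxIneq' w (fun x => A * Real.exp (κ * S1 x)) S →
      ∫ x, Real.exp (α * S1 x) ∂(volX w) ≤ K → ∀ x, S x ≤ C := by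
  have hloc : ∀ x : X, ∃ R > 0, closedBall (chartAt (Cm n) x x) (2 * R) ⊆
      (chartAt (Cm n) x).target := by
    intro x
    have h1 : (chartAt (Cm n) x).target ∈ 𝓝 (chartAt (Cm n) x x) :=
      (chartAt (Cm n) x).open_target.mem_nhds (mem_chart_target _ x)
    obtain ⟨r, hr, h2⟩ := Metric.nhds_basis_closedBall.mem_iff.1 h1
    exact ⟨r / 2, by positivity, by rw [mul_div_cancel₀ _ (by norm_num : (2 : ℝ) ≠ 0)]; exact h2⟩
  choose R hR hRt using hloc
  have key' := fun x : X => key hn hw (K := K) hA hκ hα hκα (chart_mem_atlas (Cm n) x) (hR x) (hRt x)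
  choose C hC using key'
  obtain ⟨t, ht⟩ := isCompact_univ.elim_nhds_subcover
    (fun x : X => (chartAt (Cm n) x).source ∩ chartAt (Cm n) x ⁻¹' ball (chartAt (Cm n) x x) (R x))
    (fun x _ => Filter.inter_mem (chart_source_mem_nhds _ x)
      (((chartAt (Cm n) x).continuousAt (mem_chart_source _ x)).preimage_mem_nhds
        (ball_mem_nhds _ (hR x))))
  refine ⟨∑ x ∈ t, |C x|, fun S S1 hS hS1 h0 h01 hmax hint x => ?_⟩
  obtain ⟨y, _, hy⟩ := (hS.upperSemicontinuousOn univ).exists_isMaxOn ⟨x, mem_univ x⟩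
    isCompact_univ
  have hy' : ∀ z, S z ≤ S y := fun z => hy (mem_univ z)
  obtain ⟨i, hi, hyi⟩ := mem_iUnion₂.1 (ht.2 (mem_univ y))
  have h1 := hC i S S1 hS hS1 h0 h01 hmax hint y hyi.1 hyi.2 hy'
  calc S x ≤ S y := hy' x
    _ ≤ C i := h1
    _ ≤ |C i| := le_abs_self _
    _ ≤ ∑ x ∈ t, |C x| := Finset.single_le_sum (f := fun x => |C x|) (fun _ _ => abs_nonneg _) hi

end Vale.Agent.P272.S3D4
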