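import Vale.Agent.P272.S3D4.Young
import Mathlib.Analysis.Calculus.BumpFunction.FiniteDimension

/-! P272, Stage 3, Step D: the potential of a density in a ball. -/

open scoped Manifold ContDiff ComplexOrder Topology Convolution
open Complex Filter Set MeasureTheory Metric Vale.Agent.P272.K Vale.Agent.P272.K.AMP

noncomputable section

namespace Vale.Agent.P272.S3D4

variable {n : ℕ}

lemma exists_cut {R ε : ℝ} (hR : 0 < R) (hε : 0 < ε) : ∃ g : Cm n → ℝ, ContDiff ℝ ∞ g ∧
    HasCompactSupport g ∧ ∀ z ∈ ball (0 : Cm n) (3 * R), g =ᶠ[𝓝 z] ke n ε := by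
  let χ : ContDiffBump (0 : Cm n) := ⟨3 * R, 4 * R, by linarith, by linarith⟩
  refine ⟨fun z => χ z * ke n ε z, χ.contDiff.mul (contDiff_ke hε), χ.hasCompactSupport.mul_right,
    fun z hz => ?_⟩
  filter_upwards [isOpen_ball.mem_nhds hz] with y hy
  rw [χ.one_of_mem_closedBall (ball_subset_closedBall hy), one_mul]

lemma lp_congr {f g : Cm n → ℝ} {z : Cm n} (h : f =ᶠ[𝓝 z] g) : lp f z = lp g z := by
  unfold lp
  rw [cHess_congr h]

lemma sub_mem_ball {R : ℝ} (hR : 0 < R) {x0 x y : Cm n} (hx : x ∈ closedBall x0 R)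
    (hy : y ∈ closedBall x0 R) : x - y ∈ ball (0 : Cm n) (3 * R) := by
  rw [mem_ball_zero_iff, ← dist_eq_norm]
  have := dist_triangle x x0 y
  have h3 := mem_closedBall.1 hx
  have h4 := mem_closedBall'.1 hy
  linarith

lemma exists_pot {R ε : ℝ} (hR : 0 < R) (hε : 0 < ε) (x0 : Cm n) {F : Cm n → ℝ}
    (hF : Continuous F) : ∃ P : Cm n → ℝ, ContDiff ℝ ∞ P ∧
      (∀ x ∈ closedBall x0 R, P x = ∫ y in closedBall x0 R, F y * ke n ε (x - y)) ∧
      ∀ x ∈ closedBall x0 R, lp P x = ∫ y in closedBall x0 R, F y * lp (ke n ε) (x - y) := by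
  obtain ⟨g, hg, hgs, hge⟩ := exists_cut (n := n) hR hε
  set f : Cm n → ℝ := (closedBall x0 R).indicator F with hf
  have hfi : Integrable f := (integrable_indicator_iff measurableSet_closedBall).2
    (hF.continuousOn.integrableOn_compact (isCompact_closedBall x0 R))
  have hfl : LocallyIntegrable f volume := hfi.locallyIntegrable
  refine ⟨pot f g, contDiff_pot hfl hgs hg, fun x hx => ?_, fun x hx => ?_⟩
  · unfold pot
    rw [← integral_indicator measurableSet_closedBall]
    refine integral_congr_ae (Eventually.of_forall fun t => ?_)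
    by_cases ht : t ∈ closedBall x0 R
    · simp only [hf, indicator_of_mem ht, smul_eq_mul]
      rw [(hge _ (sub_mem_ball hR hx ht)).eq_of_nhds]
    · simp only [hf, indicator_of_notMem ht, zero_smul]
  · rw [lp_pot hfl hgs hg, ← integral_indicator measurableSet_closedBall]
    refine integral_congr_ae (Eventually.of_forall fun t => ?_)
    by_cases ht : t ∈ closedBall x0 R
    · simp only [hf, indicator_of_mem ht]
      rw [lp_congr (hge _ (sub_mem_ball hR hx ht))]
    · simp only [hf, indicator_of_notMem ht, zero_mul]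

/-- the constant of the lower bound -/
def c0 (n : ℕ) : ℝ := n / ((n : ℝ) + 1) ^ (n + 1) * (volume (ball (0 : Cm n) 1)).toReal

lemma c0_pos (hn : 2 ≤ n) : 0 < c0 n := by
  have h1 : 0 < (volume (ball (0 : Cm n) 1)).toReal :=
    ENNReal.toReal_pos (measure_ball_pos _ _ one_pos).ne' measure_ball_lt_top.ne
  have : (0 : ℝ) < n := by positivity
  unfold c0
  positivity

lemma continuous_lp_ke (hn : 2 ≤ n) {ε : ℝ} (hε : 0 < ε) : Continuous (lp (ke n ε)) := by
  have : lp (ke n ε) = fun z => n * ε ^ 2 / (AMP.sq 0 z + ε ^ 2) ^ (n + 1) := by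
    funext z; exact lp_ke hn hε z
  rw [this]
  have h1 : Continuous fun z : Cm n => AMP.sq 0 z + ε ^ 2 := (contDiff_arg ε).continuous
  exact continuous_const.div (h1.pow _) fun z => (pow_pos (arg_pos hε z) _).ne'

lemma lp_pot_ge (hn : 2 ≤ n) {R ε : ℝ} (hε : 0 < ε) {x0 x : Cm n}
    (hxε : closedBall x ε ⊆ closedBall x0 R) {F : Cm n → ℝ} (hF : Continuous F)
    (hF0 : ∀ y, 0 ≤ F y) {m : ℝ} (hm : ∀ y ∈ closedBall x ε, m ≤ F y) :
    c0 n * m ≤ ∫ y in closedBall x0 R, F y * lp (ke n ε) (x - y) := by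
  have hc : Continuous fun y => F y * lp (ke n ε) (x - y) :=
    hF.mul ((continuous_lp_ke hn hε).comp (continuous_const.sub continuous_id))
  have h0 : ∀ y, 0 ≤ F y * lp (ke n ε) (x - y) := fun y =>
    mul_nonneg (hF0 y) (lp_ke_nonneg hn hε _)
  have hi : ∀ (z : Cm n) r, IntegrableOn (fun y => F y * lp (ke n ε) (x - y)) (closedBall z r) :=
    fun z r => hc.continuousOn.integrableOn_compact (isCompact_closedBall z r)
  have h1 : ∫ y in closedBall x ε, F y * lp (ke n ε) (x - y) ≤
      ∫ y in closedBall x0 R, F y * lp (ke n ε) (x - y) :=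
    setIntegral_mono_set (hi x0 R) (Eventually.of_forall fun y => h0 y)
      (LE.le.eventuallyLE hxε)
  refine le_trans ?_ h1
  rcases le_or_gt m 0 with hm0 | hm0
  · refine le_trans ?_ (setIntegral_nonneg measurableSet_closedBall fun y _ => h0 y)
    exact mul_nonpos_of_nonneg_of_nonpos (c0_pos hn).le hm0
  have h2 : ∫ _y in closedBall x ε, m * (n / ((n : ℝ) + 1) ^ (n + 1) / ε ^ (2 * n)) ≤
      ∫ y in closedBall x ε, F y * lp (ke n ε) (x - y) := by
    refine setIntegral_mono_on ?_ (hi x ε) measurableSet_closedBall fun y hy => ?_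
    · exact continuous_const.continuousOn.integrableOn_compact (isCompact_closedBall x ε)
    · have h3 : ‖x - y‖ ≤ ε := by rw [← dist_eq_norm]; exact mem_closedBall'.1 hy
      exact mul_le_mul (hm y hy) (lp_ke_ge hn hε h3) (by positivity) (hF0 y)
  refine le_trans (le_of_eq ?_) h2
  rw [setIntegral_const, smul_eq_mul, Measure.real, Measure.addHaar_closedBall _ _ hε.le,
    ENNReal.toReal_mul, ENNReal.toReal_ofReal (by positivity), finrank_Cm]
  unfold c0
  field_simp

end Vale.Agent.P272.S3D4
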