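import Vale.Agent.P272.S3D4.Conv
import Mathlib.MeasureTheory.Constructions.HaarToSphere
import Mathlib.LinearAlgebra.Complex.FiniteDimensional
import Mathlib.MeasureTheory.Integral.IntegralEqImproper

/-! P272, Stage 3, Step D: integrability of the Newton kernel to the power `(n+1)/n`. -/

open scoped Manifold ContDiff ComplexOrder Topology Convolution
open Complex Filter Set MeasureTheory Metric Vale.Agent.P272.K Vale.Agent.P272.K.AMP

noncomputable section

namespace Vale.Agent.P272.S3D4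

variable {n : ℕ}

lemma young (hn : 2 ≤ n) {a b : ℝ} (ha : 0 ≤ a) (hb : 0 ≤ b) :
    a * b ≤ a ^ (((n : ℝ) + 1) / n) + b ^ (n + 1) := by
  have hn0 : (0 : ℝ) < n := by positivity
  rcases le_or_gt a (b ^ n) with h | h
  · have h1 : a * b ≤ b ^ (n + 1) := by
      rw [pow_succ]; exact mul_le_mul_of_nonneg_right h hb
    have h2 : 0 ≤ a ^ (((n : ℝ) + 1) / n) := Real.rpow_nonneg ha _
    linarith
  · have h0 : 0 < a := lt_of_le_of_lt (by positivity) h
    have h1 : b ≤ a ^ ((n : ℝ)⁻¹) := by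
      rw [Real.le_rpow_inv_iff_of_pos hb ha hn0, Real.rpow_natCast]
      exact h.le
    have h2 : a * b ≤ a ^ (((n : ℝ) + 1) / n) := by
      calc a * b ≤ a * a ^ ((n : ℝ)⁻¹) := mul_le_mul_of_nonneg_left h1 ha
        _ = a ^ (((n : ℝ) + 1) / n) := by
          have e1 : ((n : ℝ) + 1) / n = 1 + (n : ℝ)⁻¹ := by field_simp
          rw [e1, Real.rpow_add h0, Real.rpow_one]
    have h3 : 0 ≤ b ^ (n + 1) := by positivity
    linarith

/-- the exponent `2n - 2/n` -/
def dd' (n : ℕ) : ℝ := 2 * n - 2 / n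

lemma finrank_Cm (n : ℕ) : Module.finrank ℝ (Cm n) = 2 * n := by
  rw [Module.finrank_pi_fintype]
  simp [Complex.finrank_real_complex, mul_comm]

lemma integrableOn_rpow (hn : 2 ≤ n) (R : ℝ) :
    IntegrableOn (fun y : Cm n => ‖y‖ ^ (-dd' n)) (ball (0 : Cm n) R) := by
  have : Nonempty (Fin n) := ⟨⟨0, by omega⟩⟩
  have : Nontrivial (Cm n) := inferInstance
  rw [integrableOn_fun_norm_addHaar (μ := (volume : Measure (Cm n)))
    (f := fun r : ℝ => r ^ (-dd' n)), finrank_Cm]
  have hn0 : (0 : ℝ) < n := by positivity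
  rcases le_or_gt R 0 with hR | hR
  · rw [Ioo_eq_empty (not_lt.2 hR)]; exact integrableOn_empty
  have h1 : IntegrableOn (fun y : ℝ => y ^ (2 / (n : ℝ) - 1)) (Ioo 0 R) := by
    have h2 : IntervalIntegrable (fun y : ℝ => y ^ (2 / (n : ℝ) - 1)) volume 0 R :=
      intervalIntegral.intervalIntegrable_rpow' (by
        have : 0 < 2 / (n : ℝ) := by positivity
        linarith)
    rw [intervalIntegrable_iff_integrableOn_Ioo_of_le hR.le] at h2
    exact h2
  refine h1.congr_fun (fun y hy => ?_) measurableSet_Ioo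
  have hy0 : 0 < y := hy.1
  simp only [smul_eq_mul]
  rw [← Real.rpow_natCast, ← Real.rpow_add hy0]
  congr 1
  unfold dd'
  have : ((2 * n - 1 : ℕ) : ℝ) = 2 * n - 1 := by
    rw [Nat.cast_sub (by omega)]; push_cast; ring
  rw [this]
  ring

lemma pow_kernel (hn : 2 ≤ n) {z : Cm n} (hz : z ≠ 0) :
    ((‖z‖ ^ (2 * (n - 1)))⁻¹) ^ (((n : ℝ) + 1) / n) = ‖z‖ ^ (-dd' n) := by
  have hz' : 0 < ‖z‖ := norm_pos_iff.2 hz
  rw [← Real.rpow_natCast, ← Real.rpow_neg hz'.le, ← Real.rpow_mul hz'.le]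
  congr 1
  unfold dd'
  have hn0 : (0 : ℝ) < n := by positivity
  have : ((2 * (n - 1) : ℕ) : ℝ) = 2 * (n - 1) := by
    push_cast [Nat.cast_sub (show 1 ≤ n by omega)]; ring
  rw [this]
  field_simp
  ring

/-- the constant -/
def I0 (n : ℕ) (R : ℝ) : ℝ := ∫ y in ball (0 : Cm n) (3 * R), ‖y‖ ^ (-dd' n)

lemma I0_nonneg (n : ℕ) (R : ℝ) : 0 ≤ I0 n R :=
  integral_nonneg fun _ => Real.rpow_nonneg (norm_nonneg _) _

lemma integrableOn_shift (hn : 2 ≤ n) {R : ℝ} (hR : 0 < R) {x0 x : Cm n} (hx : x ∈ closedBall x0 R) :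
    IntegrableOn (fun y : Cm n => ‖x - y‖ ^ (-dd' n)) (closedBall x0 R) ∧
      ∫ y in closedBall x0 R, ‖x - y‖ ^ (-dd' n) ≤ I0 n R := by
  set g : Cm n → ℝ := (ball (0 : Cm n) (3 * R)).indicator fun y => ‖y‖ ^ (-dd' n) with hg
  have hgi : Integrable g := (integrable_indicator_iff measurableSet_ball).2
    (integrableOn_rpow hn (3 * R))
  have hg0 : ∀ y, 0 ≤ g y := fun y =>
    indicator_nonneg (fun y _ => Real.rpow_nonneg (norm_nonneg _) _) y
  have h1 : Integrable (fun y => g (x - y)) := by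
    have := hgi.comp_sub_left x
    exact this
  have h2 : ∀ y ∈ closedBall x0 R, ‖x - y‖ ^ (-dd' n) = g (x - y) := by
    intro y hy
    have : x - y ∈ ball (0 : Cm n) (3 * R) := by
      rw [mem_ball_zero_iff, ← dist_eq_norm]
      have := dist_triangle x x0 y
      have h3 := mem_closedBall.1 hx
      have h4 := mem_closedBall'.1 hy
      linarith
    rw [hg, indicator_of_mem this]
  constructor
  · exact h1.integrableOn.congr_fun (fun y hy => (h2 y hy).symm) measurableSet_closedBall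
  · calc ∫ y in closedBall x0 R, ‖x - y‖ ^ (-dd' n) = ∫ y in closedBall x0 R, g (x - y) :=
          setIntegral_congr_fun measurableSet_closedBall h2
      _ ≤ ∫ y, g (x - y) := setIntegral_le_integral h1 (Eventually.of_forall fun y => hg0 _)
      _ = ∫ y, g y := integral_sub_left_eq_self g volume x
      _ = I0 n R := integral_indicator measurableSet_ball

/-- the bound of the potential -/
lemma pot_bound (hn : 2 ≤ n) {R : ℝ} (hR : 0 < R) {x0 x : Cm n} (hx : x ∈ closedBall x0 R)
    {F : Cm n → ℝ} (hF : Continuous F) (hF0 : ∀ y, 0 ≤ F y) {ε : ℝ} (hε : 0 < ε) :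
    ∫ y in closedBall x0 R, F y * (-ke n ε (x - y)) ≤
      I0 n R + ∫ y in closedBall x0 R, F y ^ (n + 1) := by
  obtain ⟨h1, h2⟩ := integrableOn_shift hn hR hx
  have h3 : IntegrableOn (fun y => F y ^ (n + 1)) (closedBall x0 R) :=
    (hF.pow _).continuousOn.integrableOn_compact (isCompact_closedBall x0 R)
  have hk : Continuous (ke n ε) := (contDiff_ke hε).continuous
  have h4 : IntegrableOn (fun y => F y * (-ke n ε (x - y))) (closedBall x0 R) :=
    (hF.mul (hk.comp (continuous_const.sub continuous_id)).neg).continuousOn.integrableOn_compact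
      (isCompact_closedBall x0 R)
  calc ∫ y in closedBall x0 R, F y * (-ke n ε (x - y))
      ≤ ∫ y in closedBall x0 R, (‖x - y‖ ^ (-dd' n) + F y ^ (n + 1)) := by
        refine setIntegral_mono_ae_restrict h4 (h1.add h3) ?_
        have h5 : ∀ᵐ y : Cm n ∂(volume.restrict (closedBall x0 R)), y ≠ x := by
          have : Nonempty (Fin n) := ⟨⟨0, by omega⟩⟩
          have : Nontrivial (Cm n) := inferInstance
          refine ae_restrict_of_ae ?_
          rw [ae_iff]
          simp
        filter_upwards [h5] with y hy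
        have hz : x - y ≠ 0 := sub_ne_zero.2 (Ne.symm hy)
        have h6 := neg_ke_le hn hε hz
        have h7 : (0 : ℝ) ≤ (‖x - y‖ ^ (2 * (n - 1)))⁻¹ := by positivity
        calc F y * (-ke n ε (x - y)) ≤ F y * (‖x - y‖ ^ (2 * (n - 1)))⁻¹ :=
              mul_le_mul_of_nonneg_left h6 (hF0 y)
          _ = (‖x - y‖ ^ (2 * (n - 1)))⁻¹ * F y := mul_comm _ _
          _ ≤ _ := by
            have h8 := young hn h7 (hF0 y)
            rw [pow_kernel hn hz] at h8
            exact h8
    _ = (∫ y in closedBall x0 R, ‖x - y‖ ^ (-dd' n)) + ∫ y in closedBall x0 R, F y ^ (n + 1) :=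
        integral_add h1 h3
    _ ≤ _ := by linarith

end Vale.Agent.P272.S3D4
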